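import Vale.Agent.P068.Defs
import Vale.Agent.P068.H156.Defs
import Vale.Agent.P068.H156.Main

open Matroid
open Vale.Agent.P068

namespace Vale.Agent.Results.P068.EveryInfiniteGroundSet

theorem result :
    ((¬ ∀ (α : Type) (M N : Matroid α), M.E = N.E → SatisfiesIntersection M N) ∧
      (¬ ∀ (α ι : Type) (E : Set α) (M : ι → Matroid α), (∀ i, (M i).E = E) →
        HasPackingCovering E M)) ∧
    (∀ (α : Type*) [Infinite α], ∃ M N : Matroid α, M.E = Set.univ ∧ N.E = Set.univ ∧
      IsCountableSumOfUniform M ∧ IsCountableSumOfUniform N ∧ ¬ SatisfiesIntersection M N ∧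
      ¬ HasPackingCovering Set.univ (fun b : Bool => if b then M else N✶)) ∧
    (∀ α : Type*, (∀ M N : Matroid α, M.E = Set.univ → N.E = Set.univ →
      SatisfiesIntersection M N) ↔ Finite α) := by
  refine ⟨?_, fun α _ => H156.counterexample_infinite α, H156.intersection_iff_finite⟩
  obtain ⟨M, N, hM, hN, -, -, hMN, hPC⟩ := H156.counterexample_infinite ℕ
  refine ⟨fun h => hMN (h ℕ M N (hM.trans hN.symm)), fun h => hPC (h ℕ Bool _ _ ?_)⟩
  intro b
  cases b
  · exact hN
  · exact hM

end Vale.Agent.Results.P068.EveryInfiniteGroundSet
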