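import Vale.Agent.P068.Defs
import Vale.Agent.P068.H476.Main

open Matroid
open Vale.Agent.P068

namespace Vale.Agent.Results.P068.IsomorphicFamilies

theorem result :
    ((¬ ∀ (α : Type) (M N : Matroid α), M.E = N.E → SatisfiesIntersection M N) ∧
      (¬ ∀ (α ι : Type) (E : Set α) (M : ι → Matroid α), (∀ i, (M i).E = E) →
        HasPackingCovering E M)) ∧
    (∀ (α : Type*) [Infinite α], ∃ (M : Matroid α) (t r : Equiv.Perm α), M.E = Set.univ ∧
      t * t = 1 ∧ r * r = 1 ∧ M✶ = M.mapEquiv t ∧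
      ¬ SatisfiesIntersection M (M.mapEquiv r) ∧
      ¬ HasPackingCovering Set.univ (fun b : Bool => if b then M else (M.mapEquiv r)✶)) ∧
    (∀ (α : Type*) [Infinite α] (ι : Type*) [Nontrivial ι], ∃ M : ι → Matroid α,
      (∀ i, (M i).E = Set.univ) ∧ (∀ i j, ∃ s : Equiv.Perm α, M j = (M i).mapEquiv s) ∧
      (∀ i, ∃ s : Equiv.Perm α, (M i)✶ = (M i).mapEquiv s) ∧
      ¬ HasPackingCovering Set.univ M) ∧
    (∀ (α : Type*) (ι : Type*),
      (∀ M : ι → Matroid α, (∀ i, (M i).E = Set.univ) → HasPackingCovering Set.univ M) ↔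
        Finite α ∨ Subsingleton ι) := by
  refine ⟨?_, fun α _ => ?_, fun α _ ι _ => H476.exists_family α ι, H476.packingCovering_iff⟩
  · obtain ⟨M, t, r, a, hE, -, -, -, h1, h2, -⟩ := H476.exists_big.{0, 0} ℕ
    refine ⟨fun h => h1 (h ℕ M _ (hE.trans (H476.mapEquiv_ground hE r).symm)),
      fun h => h2 (h ℕ Bool _ _ ?_)⟩
    intro b
    cases b
    · exact H476.dual_univ (H476.mapEquiv_ground hE r)
    · exact hE
  · obtain ⟨M, t, r, a, hE, ht, hr, hd, h1, h2, -⟩ := H476.exists_big.{_, 0} α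
    exact ⟨M, t, r, hE, ht, hr, hd, h1, h2⟩

end Vale.Agent.Results.P068.IsomorphicFamilies
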